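import Vale.Agent.Lib.P070.Interface2
import Vale.Agent.Lib.P083.States

/-!
# P070, part R: a nontrivial C*-algebra has an irreducible representation

Pure states by Krein-Milman on the compact convex set of states (functions `A → ℂ`), and the GNS
representation of Mathlib.
-/

open Filter Topology

namespace P070

universe u v

namespace R

attribute [local instance] CStarAlgebra.spectralOrder CStarAlgebra.spectralOrderedRing

open scoped ComplexOrder InnerProductSpace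

variable {A : Type} [CStarAlgebra A]

/-- states, as functions -/
def St (A : Type) [CStarAlgebra A] : Set (A → ℂ) :=
  {f | (∀ a b, f (a + b) = f a + f b) ∧ (∀ (c : ℂ) (a : A), f (c • a) = c * f a) ∧ f 1 = 1 ∧
    (∀ a, 0 ≤ f (star a * a)) ∧ ∀ a, ‖f a‖ ≤ ‖a‖}

theorem isClosed_St : IsClosed (St A) := by
  have h : St A = (⋂ a : A, ⋂ b : A, {f : A → ℂ | f (a + b) = f a + f b}) ∩
      (⋂ c : ℂ, ⋂ a : A, {f : A → ℂ | f (c • a) = c * f a}) ∩ {f : A → ℂ | f 1 = 1} ∩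
      (⋂ a : A, {f : A → ℂ | 0 ≤ f (star a * a)}) ∩ (⋂ a : A, {f : A → ℂ | ‖f a‖ ≤ ‖a‖}) := by
    ext f
    simp only [St, Set.mem_ofPred_eq, Set.mem_inter_iff, Set.mem_iInter]
    tauto
  rw [h]
  refine ((((isClosed_iInter fun a => isClosed_iInter fun b => ?_).inter
    (isClosed_iInter fun c => isClosed_iInter fun a => ?_)).inter ?_).inter
    (isClosed_iInter fun a => ?_)).inter (isClosed_iInter fun a => ?_)
  · exact isClosed_eq (f := fun f : A → ℂ => f (a + b)) (g := fun f => f a + f b)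
      (by fun_prop) (by fun_prop)
  · exact isClosed_eq (f := fun f : A → ℂ => f (c • a)) (g := fun f => c * f a)
      (by fun_prop) (by fun_prop)
  · exact isClosed_eq (continuous_apply _) continuous_const
  · exact isClosed_le continuous_const (continuous_apply _)
  · exact isClosed_le (continuous_apply _).norm continuous_const

theorem isCompact_St : IsCompact (St A) := by
  have h : IsCompact (Set.pi Set.univ fun a : A => Metric.closedBall (0 : ℂ) ‖a‖) :=
    isCompact_univ_pi fun a => isCompact_closedBall 0 ‖a‖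
  refine h.of_isClosed_subset isClosed_St fun f hf => ?_
  rw [Set.mem_univ_pi]
  intro a
  rw [mem_closedBall_zero_iff]
  exact hf.2.2.2.2 a

theorem St_nonempty [Nontrivial A] : (St A).Nonempty := by
  obtain ⟨g, hg, h1⟩ := exists_dual_vector ℂ (1 : A)
    (by rw [CStarRing.norm_one]; exact one_ne_zero)
  have h1' : g 1 = 1 := by
    rw [h1, CStarRing.norm_one]
    simp
  refine ⟨g, fun a b => map_add g a b, fun c a => by simp, h1', fun a => ?_, fun a => ?_⟩
  · exact Vale.Agent.P083.States.pos g hg h1' _ (star_mul_self_nonneg a)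
  · have := g.le_opNorm a
    rwa [hg, one_mul] at this

/-- vector states -/
theorem vec_mem {K : Type u} [NormedAddCommGroup K] [InnerProductSpace ℂ K] [CompleteSpace K]
    (π : A →⋆ₐ[ℂ] (K →L[ℂ] K)) (x : K) (hx : ‖x‖ = 1) :
    (fun a => ⟪x, π a x⟫_ℂ) ∈ St A := by
  refine ⟨fun a b => ?_, fun c a => ?_, ?_, fun a => ?_, fun a => ?_⟩
  · simp only [map_add, ContinuousLinearMap.add_apply, inner_add_right]
  · simp only [map_smul, ContinuousLinearMap.smul_apply, inner_smul_right]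
  · simp only [map_one, ContinuousLinearMap.one_apply]
    rw [inner_self_eq_norm_sq_to_K, hx]
    simp
  · simp only [map_mul, map_star, ContinuousLinearMap.mul_apply,
      ContinuousLinearMap.star_eq_adjoint, ContinuousLinearMap.adjoint_inner_right]
    have h1 : ⟪π a x, π a x⟫_ℂ = ((‖π a x‖ ^ 2 : ℝ) : ℂ) := by
      rw [inner_self_eq_norm_sq_to_K]
      simp
    rw [h1]
    exact Complex.zero_le_real.2 (sq_nonneg _)
  · calc ‖⟪x, π a x⟫_ℂ‖ ≤ ‖x‖ * ‖π a x‖ := norm_inner_le_norm _ _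
      _ ≤ ‖x‖ * (‖π a‖ * ‖x‖) := by gcongr; exact (π a).le_opNorm x
      _ ≤ ‖a‖ := by rw [hx, one_mul, mul_one]; exact NonUnitalStarAlgHom.norm_apply_le π a

/-- a cyclic representation whose vector state is an extreme point is irreducible -/
theorem irr_of_extreme {K : Type u} [NormedAddCommGroup K] [InnerProductSpace ℂ K]
    [CompleteSpace K] (π : A →⋆ₐ[ℂ] (K →L[ℂ] K)) (ξ : K) (hξ : ‖ξ‖ = 1)
    (hcyc : ∀ L : Submodule ℂ K, IsClosed (L : Set K) → (∀ a, π a ξ ∈ L) → L = ⊤)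
    (hext : (fun a => ⟪ξ, π a ξ⟫_ℂ) ∈ (St A).extremePoints ℝ) : Irr π := by
  intro E hE hinv
  have hEc : CompleteSpace E := hE.completeSpace_coe
  have hinv' : ∀ a, ∀ z ∈ Eᗮ, π a z ∈ Eᗮ := by
    intro a z hz
    rw [Submodule.mem_orthogonal] at hz ⊢
    intro w hw
    have h1 : ⟪w, π a z⟫_ℂ = ⟪π (star a) w, z⟫_ℂ := by
      rw [map_star, ContinuousLinearMap.star_eq_adjoint, ContinuousLinearMap.adjoint_inner_left]
    rw [h1]
    exact hz _ (hinv _ _ hw)
  obtain ⟨x, hx, y, hy, hxy⟩ := E.exists_add_mem_mem_orthogonal ξ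
  have horth : ∀ z ∈ E, ∀ w ∈ Eᗮ, ⟪z, w⟫_ℂ = 0 := fun z hz w hw =>
    (Submodule.mem_orthogonal _ _).1 hw z hz
  have horth' : ∀ z ∈ E, ∀ w ∈ Eᗮ, ⟪w, z⟫_ℂ = 0 := fun z hz w hw =>
    (Submodule.mem_orthogonal' _ _).1 hw z hz
  by_cases hx0 : x = 0
  · left
    have h1 : ξ ∈ Eᗮ := by rw [hxy, hx0, zero_add]; exact hy
    have h2 := hcyc Eᗮ E.isClosed_orthogonal (fun a => hinv' a ξ h1)
    rw [Submodule.eq_bot_iff]
    intro z hz
    have h3 : z ∈ Eᗮ := by rw [h2]; trivial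
    exact inner_self_eq_zero.1 (horth z hz z h3)
  by_cases hy0 : y = 0
  · right
    have h1 : ξ ∈ E := by rw [hxy, hy0, add_zero]; exact hx
    exact hcyc E hE (fun a => hinv a ξ h1)
  exfalso
  have hxn : 0 < ‖x‖ := norm_pos_iff.2 hx0
  have hyn : 0 < ‖y‖ := norm_pos_iff.2 hy0
  have hsum : ‖x‖ ^ 2 + ‖y‖ ^ 2 = 1 := by
    have h1 := norm_add_sq_eq_norm_sq_add_norm_sq_of_inner_eq_zero x y (horth x hx y hy)
    rw [← hxy, hξ] at h1
    nlinarith
  -- the vector states of the normalized components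
  have hst : ∀ z : K, z ≠ 0 → (fun a => ((‖z‖ ^ 2 : ℝ) : ℂ)⁻¹ * ⟪z, π a z⟫_ℂ) ∈ St A := by
    intro z hz
    have h1 := vec_mem π (((‖z‖ : ℝ) : ℂ)⁻¹ • z) (by
      rw [norm_smul, norm_inv, Complex.norm_real, norm_norm, inv_mul_cancel₀ (norm_ne_zero_iff.2 hz)])
    have h2 : (fun a => ⟪((‖z‖ : ℝ) : ℂ)⁻¹ • z, π a (((‖z‖ : ℝ) : ℂ)⁻¹ • z)⟫_ℂ) =
        fun a => ((‖z‖ ^ 2 : ℝ) : ℂ)⁻¹ * ⟪z, π a z⟫_ℂ := by
      funext a
      rw [map_smul, inner_smul_left, inner_smul_right, map_inv₀, Complex.conj_ofReal]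
      push_cast
      rw [← mul_assoc, sq, mul_inv]
    rw [h2] at h1
    exact h1
  have hdec : ∀ a, ⟪ξ, π a ξ⟫_ℂ = ⟪x, π a x⟫_ℂ + ⟪y, π a y⟫_ℂ := by
    intro a
    conv_lhs => rw [hxy]
    rw [map_add, inner_add_left, inner_add_right, inner_add_right,
      horth x hx _ (hinv' a y hy), horth' _ (hinv a x hx) y hy]
    ring
  have hx2 : ((‖x‖ ^ 2 : ℝ) : ℂ) ≠ 0 := by
    exact_mod_cast (pow_pos hxn 2).ne'
  have hy2 : ((‖y‖ ^ 2 : ℝ) : ℂ) ≠ 0 := by
    exact_mod_cast (pow_pos hyn 2).ne'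
  have hseg : (fun a => ⟪ξ, π a ξ⟫_ℂ) ∈ openSegment ℝ
      (fun a => ((‖x‖ ^ 2 : ℝ) : ℂ)⁻¹ * ⟪x, π a x⟫_ℂ)
      (fun a => ((‖y‖ ^ 2 : ℝ) : ℂ)⁻¹ * ⟪y, π a y⟫_ℂ) := by
    refine ⟨‖x‖ ^ 2, ‖y‖ ^ 2, pow_pos hxn 2, pow_pos hyn 2, hsum, ?_⟩
    funext a
    simp only [Pi.add_apply, Pi.smul_apply, Complex.real_smul]
    rw [hdec a, mul_inv_cancel_left₀ hx2, mul_inv_cancel_left₀ hy2]
  rw [mem_extremePoints] at hext
  have hext' := (hext.2 _ (hst x hx0) _ (hst y hy0) hseg).1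
  have heq : ∀ a, ⟪x, π a x⟫_ℂ = ((‖x‖ ^ 2 : ℝ) : ℂ) * ⟪ξ, π a ξ⟫_ℂ := by
    intro a
    have h1 : ((‖x‖ ^ 2 : ℝ) : ℂ)⁻¹ * ⟪x, π a x⟫_ℂ = ⟪ξ, π a ξ⟫_ℂ := congrFun hext' a
    rw [← h1, mul_inv_cancel_left₀ hx2]
  have hzero : ∀ a, ⟪x - ((‖x‖ ^ 2 : ℝ) : ℂ) • ξ, π a ξ⟫_ℂ = 0 := by
    intro a
    rw [inner_sub_left, inner_smul_left, Complex.conj_ofReal, ← heq a]
    conv_lhs => rw [hxy]
    rw [map_add, inner_add_right, horth x hx _ (hinv' a y hy)]
    ring
  have hxξ : x = ((‖x‖ ^ 2 : ℝ) : ℂ) • ξ := by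
    have h1 := hcyc (ℂ ∙ (x - ((‖x‖ ^ 2 : ℝ) : ℂ) • ξ))ᗮ (Submodule.isClosed_orthogonal _)
      (fun a => Submodule.mem_orthogonal_singleton_iff_inner_right.2 (hzero a))
    have h2 : x - ((‖x‖ ^ 2 : ℝ) : ℂ) • ξ ∈ (ℂ ∙ (x - ((‖x‖ ^ 2 : ℝ) : ℂ) • ξ))ᗮ := by
      rw [h1]; trivial
    rw [Submodule.mem_orthogonal_singleton_iff_inner_right, inner_self_eq_zero, sub_eq_zero] at h2
    exact h2
  have hξE : ξ ∈ E := by
    have h1 : ξ = ((‖x‖ ^ 2 : ℝ) : ℂ)⁻¹ • x := by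
      rw [eq_inv_smul_iff₀ hx2]
      exact hxξ.symm
    rw [h1]
    exact E.smul_mem _ hx
  have h2 := horth ξ hξE y hy
  rw [hxy, inner_add_left, horth x hx y hy, zero_add, inner_self_eq_zero] at h2
  exact hy0 h2

/-- the functional of a state as a positive linear map -/
noncomputable def pos (f : A → ℂ) (hf : f ∈ St A) : A →ₚ[ℂ] ℂ :=
  PositiveLinearMap.mk₀
    { toFun := f
      map_add' := hf.1
      map_smul' := fun c a => by simpa using hf.2.1 c a } (by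
    intro x hx
    obtain ⟨a, rfl⟩ := CStarAlgebra.nonneg_iff_eq_star_mul_self.mp hx
    exact hf.2.2.2.1 a)

theorem pos_apply (f : A → ℂ) (hf : f ∈ St A) (a : A) : pos f hf a = f a := rfl

theorem pi_coe (f : A → ℂ) (hf : f ∈ St A) (a b : A) :
    (pos f hf).gnsStarAlgHom a
        (((pos f hf).toPreGNS b : (pos f hf).PreGNS) : (pos f hf).GNS)
      = (((pos f hf).toPreGNS (a * b) : (pos f hf).PreGNS) : (pos f hf).GNS) := by
  have h := (pos f hf).gnsNonUnitalStarAlgHom_apply_coe (a := a)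
    (b := (pos f hf).toPreGNS b)
  rw [PositiveLinearMap.leftMulMapPreGNS_apply] at h
  exact h

theorem inner_coe (f : A → ℂ) (hf : f ∈ St A) (a b : A) :
    ⟪(((pos f hf).toPreGNS a : (pos f hf).PreGNS) : (pos f hf).GNS),
      (((pos f hf).toPreGNS b : (pos f hf).PreGNS) : (pos f hf).GNS)⟫_ℂ = f (star a * b) := by
  rw [UniformSpace.Completion.inner_coe, PositiveLinearMap.preGNS_inner_def,
    PositiveLinearMap.ofPreGNS_toPreGNS, PositiveLinearMap.ofPreGNS_toPreGNS, pos_apply]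

end R

attribute [local instance] CStarAlgebra.spectralOrder CStarAlgebra.spectralOrderedRing in
theorem partR : PartR := by
  intro A _ hn
  obtain ⟨f, hf⟩ := R.isCompact_St.extremePoints_nonempty (R.St_nonempty (A := A))
  have hfS : f ∈ R.St A := hf.1
  have hnorm : ‖(((R.pos f hfS).toPreGNS 1 : (R.pos f hfS).PreGNS) : (R.pos f hfS).GNS)‖ = 1 := by
    have h := R.inner_coe f hfS 1 1
    rw [star_one, mul_one, hfS.2.2.1] at h
    have h2 : ‖(((R.pos f hfS).toPreGNS 1 : (R.pos f hfS).PreGNS) :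
        (R.pos f hfS).GNS)‖ ^ 2 = 1 := by
      rw [← inner_self_eq_norm_sq (𝕜 := ℂ), h]
      simp
    exact (pow_eq_one_iff_of_nonneg (norm_nonneg _) two_ne_zero).mp h2
  refine ⟨(R.pos f hfS).GNS, inferInstance, inferInstance, inferInstance,
    (R.pos f hfS).gnsStarAlgHom, ?_, ?_⟩
  · refine ⟨_, 0, norm_ne_zero_iff.1 (hnorm.trans_ne one_ne_zero)⟩
  · refine R.irr_of_extreme _ _ hnorm ?_ ?_
    · intro L hL hmem
      rw [Submodule.eq_top_iff']
      intro x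
      induction x using UniformSpace.Completion.induction_on with
      | hp => exact hL
      | ih a =>
        have h := hmem ((R.pos f hfS).ofPreGNS a)
        rw [R.pi_coe, mul_one, PositiveLinearMap.toPreGNS_ofPreGNS] at h
        exact h
    · have h : (fun a => inner ℂ (((R.pos f hfS).toPreGNS 1 : (R.pos f hfS).PreGNS) :
          (R.pos f hfS).GNS) ((R.pos f hfS).gnsStarAlgHom a
            (((R.pos f hfS).toPreGNS 1 : (R.pos f hfS).PreGNS) : (R.pos f hfS).GNS))) = f := by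
        funext a
        rw [R.pi_coe, R.inner_coe, star_one, one_mul, mul_one]
      rw [h]
      exact hf

end P070
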